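import Vale.Agent.P309.Defs

open MeasureTheory ProbabilityTheory Metric
open scoped ENNReal NNReal

namespace P309

section Split

variable {F : Type*} [NormedAddCommGroup F] [InnerProductSpace ℝ F]
    [FiniteDimensional ℝ F] [MeasurableSpace F] [BorelSpace F]

/-- the standard Gaussian measure of `F` is the image of the product of the standard Gaussian
measures of `(ℝ ∙ e)ᗮ` and `ℝ` under `(x, t) ↦ x + t • e`, `‖e‖ = 1` (proof: helper11, P262B) -/
theorem stdGaussian_split (e : F) (he : ‖e‖ = 1) :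
    ((stdGaussian ((ℝ ∙ e)ᗮ : Submodule ℝ F)).prod (gaussianReal 0 1)).map
      (fun p : ((ℝ ∙ e)ᗮ : Submodule ℝ F) × ℝ => (p.1 : F) + p.2 • e) = stdGaussian F := by
  set X : Submodule ℝ F := (ℝ ∙ e)ᗮ with hX
  have hmeas : Measurable (fun p : X × ℝ => (p.1 : F) + p.2 • e) := by
    apply Continuous.measurable
    fun_prop
  have : IsProbabilityMeasure
      (((stdGaussian X).prod (gaussianReal 0 1)).map
        (fun p : X × ℝ => (p.1 : F) + p.2 • e)) :=
    Measure.isProbabilityMeasure_map hmeas.aemeasurable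
  apply Measure.ext_of_charFun
  ext ξ
  rw [charFun_stdGaussian, charFun_apply, integral_map hmeas.aemeasurable (by fun_prop)]
  -- decompose
  have h1 : ∀ p : X × ℝ, Complex.exp ((inner ℝ ((p.1 : F) + p.2 • e) ξ : ℝ) * Complex.I)
      = Complex.exp ((inner ℝ p.1 (X.orthogonalProjectionOnto ξ) : ℝ) * Complex.I)
        * Complex.exp ((inner ℝ p.2 (inner ℝ e ξ : ℝ) : ℝ) * Complex.I) := by
    intro p
    rw [← Complex.exp_add]
    congr 1
    rw [← add_mul]
    congr 1
    rw [inner_add_left, inner_smul_left]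
    have : inner ℝ p.1 (X.orthogonalProjectionOnto ξ) = (inner ℝ (p.1 : F) ξ : ℝ) := by
      rw [Submodule.inner_orthogonalProjectionOnto_eq_of_mem_left]
    rw [this]
    push_cast
    congr 1
    simp [mul_comm]
  simp_rw [h1]
  rw [integral_prod_mul (f := fun x : X => Complex.exp ((inner ℝ x (X.orthogonalProjectionOnto ξ) : ℝ) * Complex.I))
    (g := fun t : ℝ => Complex.exp ((inner ℝ t (inner ℝ e ξ : ℝ) : ℝ) * Complex.I))]
  rw [← charFun_apply, ← charFun_apply, charFun_stdGaussian, charFun_gaussianReal]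
  rw [← Complex.exp_add]
  congr 1
  have h2 : ‖ξ‖ ^ 2 = ‖X.orthogonalProjectionOnto ξ‖ ^ 2 + (inner ℝ e ξ : ℝ) ^ 2 := by
    have h3 := Submodule.norm_sq_eq_add_norm_sq_projection ξ (ℝ ∙ e)
    have h4 : ‖(ℝ ∙ e).orthogonalProjectionOnto ξ‖ ^ 2 = (inner ℝ e ξ : ℝ) ^ 2 := by
      have h5 := Submodule.starProjection_unit_singleton ℝ he ξ
      have h6 : ‖(ℝ ∙ e).orthogonalProjectionOnto ξ‖ = ‖(ℝ ∙ e).starProjection ξ‖ := rfl
      rw [h6, h5, norm_smul, he, mul_one, Real.norm_eq_abs, sq_abs]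
    rw [h3, h4, add_comm]
  have h2' : ((‖ξ‖ : ℝ) : ℂ) ^ 2 = (‖X.orthogonalProjectionOnto ξ‖ : ℂ) ^ 2 + ((inner ℝ e ξ : ℝ) : ℂ) ^ 2 := by
    exact_mod_cast congrArg (fun r : ℝ => (r : ℂ)) h2
  rw [h2']
  push_cast
  ring

end Split

/-- mass of an interval under the standard Gaussian -/
theorem gaussianReal_Icc_le (a b : ℝ) :
    gaussianReal 0 1 (Set.Icc a b) ≤ ENNReal.ofReal ((b - a) / 2) := by
  rw [gaussianReal_apply 0 (one_ne_zero)]
  have hpdf : ∀ x, gaussianPDF 0 1 x ≤ ENNReal.ofReal (1 / 2) := by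
    intro x
    unfold gaussianPDF
    apply ENNReal.ofReal_le_ofReal
    unfold gaussianPDFReal
    have h1 : (2 : ℝ) ≤ Real.sqrt (2 * Real.pi * ((1 : ℝ≥0) : ℝ)) := by
      apply Real.le_sqrt_of_sq_le
      have := Real.pi_gt_three
      simp only [NNReal.coe_one, mul_one]
      nlinarith
    have h2 : (Real.sqrt (2 * Real.pi * ((1 : ℝ≥0) : ℝ)))⁻¹ ≤ 1 / 2 := by
      rw [← one_div]
      exact one_div_le_one_div_of_le (by norm_num) h1
    have h3 : Real.exp (-(x - 0) ^ 2 / (2 * ((1 : ℝ≥0) : ℝ))) ≤ 1 := by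
      rw [Real.exp_le_one_iff]
      simp only [NNReal.coe_one, mul_one]
      have : 0 ≤ (x - 0) ^ 2 := sq_nonneg _
      linarith
    calc (Real.sqrt (2 * Real.pi * ((1 : ℝ≥0) : ℝ)))⁻¹
          * Real.exp (-(x - 0) ^ 2 / (2 * ((1 : ℝ≥0) : ℝ))) ≤ (1 / 2) * 1 := by
          apply mul_le_mul h2 h3 (Real.exp_nonneg _) (by norm_num)
      _ = 1 / 2 := mul_one _
  calc ∫⁻ x in Set.Icc a b, gaussianPDF 0 1 x
      ≤ ∫⁻ _ in Set.Icc a b, ENNReal.ofReal (1 / 2) := lintegral_mono fun x => hpdf x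
    _ = ENNReal.ofReal (1 / 2) * volume (Set.Icc a b) := by
        rw [lintegral_const, Measure.restrict_apply_univ]
    _ = ENNReal.ofReal ((b - a) / 2) := by
        rw [Real.volume_Icc, ← ENNReal.ofReal_mul (by norm_num)]
        congr 1
        ring

end P309
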